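import Vale.Agent.Lib.P031.Frequently

namespace Vale.Agent.Results.P031.BothSides

open Filter Topology Vale.Agent.Lib.P031

/-- Let `V(x) = totientCount x` be the number of distinct totient values `≤ x`.
Unconditionally, for every fixed `c > 1` and every `ε > 0` there are arbitrarily large `x`
with `V(cx)/V(x) < c + ε` and arbitrarily large `x` with `V(cx)/V(x) > c - ε`. -/
theorem result (c : ℝ) (hc : 1 < c) (ε : ℝ) (hε : 0 < ε) :
    (∃ᶠ x : ℝ in atTop, (totientCount (c * x) : ℝ) / (totientCount x : ℝ) < c + ε) ∧
    (∃ᶠ x : ℝ in atTop, c - ε < (totientCount (c * x) : ℝ) / (totientCount x : ℝ)) :=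
  ⟨frequently_ratio_lt hc (by linarith), frequently_ratio_gt hc (by linarith)⟩

end Vale.Agent.Results.P031.BothSides
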