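import Vale.Agent.Lib.P031.Frequently
import Vale.Agent.Lib.P031.Density
import Vale.Agent.Lib.P031.Regular

namespace Vale.Agent.Results.P031.BothSidesDensityPair

open Filter Topology Vale.Agent.Lib.P031

/-- Let `V(x) = totientCount x` be the number of distinct totient values `≤ x`.
(1) Unconditionally, for every fixed `c > 1` and every `ε > 0` there are arbitrarily large `x`
with `V(cx)/V(x) < c + ε` and arbitrarily large `x` with `V(cx)/V(x) > c - ε`.
(2) For every `c > 1`, `ε > 0` and every natural number `K`, at least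
`K (1 - log c / log (c + ε))` of the `K` numbers `x = c ^ k`, `k < K`, satisfy
`V(cx)/V(x) < c + ε`.
(3) Let `a, b > 1` be real numbers with `log a / log b` irrational. If the limits of
`V(ax)/V(x)` and of `V(bx)/V(x)` as `x → ∞` both exist (no assumption on their values), then
`V(cx)/V(x) → c` for every real `c > 0`. -/
theorem result :
    (∀ (c : ℝ), 1 < c → ∀ (ε : ℝ), 0 < ε →
      (∃ᶠ x : ℝ in atTop, (totientCount (c * x) : ℝ) / (totientCount x : ℝ) < c + ε) ∧
      (∃ᶠ x : ℝ in atTop, c - ε < (totientCount (c * x) : ℝ) / (totientCount x : ℝ))) ∧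
    (∀ (c : ℝ), 1 < c → ∀ (ε : ℝ), 0 < ε → ∀ K : ℕ,
      (K : ℝ) * (1 - Real.log c / Real.log (c + ε)) ≤
        (((Finset.range K).filter (fun k : ℕ =>
          (totientCount (c * c ^ k) : ℝ) / (totientCount (c ^ k) : ℝ) < c + ε)).card : ℝ)) ∧
    (∀ (a b : ℝ), 1 < a → 1 < b → Irrational (Real.log a / Real.log b) →
      (∃ L : ℝ,
        Tendsto (fun x : ℝ => (totientCount (a * x) : ℝ) / (totientCount x : ℝ)) atTop (𝓝 L)) →
      (∃ L : ℝ,
        Tendsto (fun x : ℝ => (totientCount (b * x) : ℝ) / (totientCount x : ℝ)) atTop (𝓝 L)) →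
      ∀ c : ℝ, 0 < c →
        Tendsto (fun x : ℝ => (totientCount (c * x) : ℝ) / (totientCount x : ℝ))
          atTop (𝓝 c)) := by
  refine ⟨fun c hc ε hε =>
    ⟨frequently_ratio_lt hc (by linarith), frequently_ratio_gt hc (by linarith)⟩,
    fun c hc ε hε K => density_ratio_lt hc (by linarith) K, ?_⟩
  intro a b ha hb hirr h1 h2
  obtain ⟨La, hLa⟩ := h1
  obtain ⟨Lb, hLb⟩ := h2
  have ea : La = a := limit_eq_of_tendsto ha hLa
  have eb : Lb = b := limit_eq_of_tendsto hb hLb
  subst ea eb
  intro c hc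
  exact ratioTendsto_of_pair (by linarith) (by linarith) hirr hLa hLb hc

end Vale.Agent.Results.P031.BothSidesDensityPair
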