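import Vale.Agent.Lib.P031.Regular

namespace Vale.Agent.Results.P031.IndependentPair

open Filter Topology Vale.Agent.Lib.P031

/-- Let `V(x) = totientCount x` be the number of distinct totient values `≤ x`, and let
`a, b > 1` be real numbers with `log a / log b` irrational. If the limits of `V(ax)/V(x)`
and of `V(bx)/V(x)` as `x → ∞` both exist (no assumption on their values), then
`V(cx)/V(x) → c` for every real `c > 0`. -/
theorem result (a b : ℝ) (ha : 1 < a) (hb : 1 < b)
    (hirr : Irrational (Real.log a / Real.log b))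
    (h1 : ∃ L : ℝ,
      Tendsto (fun x : ℝ => (totientCount (a * x) : ℝ) / (totientCount x : ℝ)) atTop (𝓝 L))
    (h2 : ∃ L : ℝ,
      Tendsto (fun x : ℝ => (totientCount (b * x) : ℝ) / (totientCount x : ℝ)) atTop (𝓝 L)) :
    ∀ c : ℝ, 0 < c →
      Tendsto (fun x : ℝ => (totientCount (c * x) : ℝ) / (totientCount x : ℝ)) atTop (𝓝 c) := by
  obtain ⟨La, hLa⟩ := h1
  obtain ⟨Lb, hLb⟩ := h2
  have ea : La = a := limit_eq_of_tendsto ha hLa
  have eb : Lb = b := limit_eq_of_tendsto hb hLb
  subst ea eb
  intro c hc
  exact ratioTendsto_of_pair (by linarith) (by linarith) hirr hLa hLb hc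

end Vale.Agent.Results.P031.IndependentPair
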