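import Vale.Agent.Lib.P031.Regular

namespace Vale.Agent.Results.P031.TwoLimits

open Filter Topology Vale.Agent.Lib.P031

/-- Let `V(x) = totientCount x` be the number of distinct totient values `≤ x`.
If the limits of `V(2x)/V(x)` and of `V(3x)/V(x)` as `x → ∞` both exist (no assumption
on their values), then `V(cx)/V(x) → c` for every real `c > 0`. -/
theorem result
    (h2 : ∃ L : ℝ,
      Tendsto (fun x : ℝ => (totientCount (2 * x) : ℝ) / (totientCount x : ℝ)) atTop (𝓝 L))
    (h3 : ∃ L : ℝ,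
      Tendsto (fun x : ℝ => (totientCount (3 * x) : ℝ) / (totientCount x : ℝ)) atTop (𝓝 L)) :
    ∀ c : ℝ, 0 < c →
      Tendsto (fun x : ℝ => (totientCount (c * x) : ℝ) / (totientCount x : ℝ)) atTop (𝓝 c) := by
  obtain ⟨L2, hL2⟩ := h2
  obtain ⟨L3, hL3⟩ := h3
  have e2 : L2 = 2 := limit_eq_of_tendsto (by norm_num) hL2
  have e3 : L3 = 3 := limit_eq_of_tendsto (by norm_num) hL3
  subst e2 e3
  intro c hc
  exact ratioTendsto_of_pair (by norm_num) (by norm_num) irrational_log_two_div_log_three
    hL2 hL3 hc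

end Vale.Agent.Results.P031.TwoLimits
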